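import Vale.Agent.P275TA.Asm

/-!
# P275: continuity of the nonabelian Hodge correspondence, reduced to families
-/

open scoped Manifold ContDiff Topology
open Filter
open Vale.Agent.P275ST (Pc Marking deg Base Higgs IsTriv)
open Vale.Agent.P275SF
open Vale.Agent.P275Z (Sit Rp tauX)
open Vale.Agent.P275MO (Ob Dat FamAt FamOn)

noncomputable section

namespace Vale.Agent.P275TA

variable {S : Sit} (B : S.Brg) {X : Type} {pt : Higgs S.C S.n S.D → X}
  {ν : X → XB S.g S.n (deg S.D)}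

/-- the points of the moduli space of the bridge which are Higgs bundles -/
abbrev M0 (T : S.Atl) : Type := {y : T.M (tauX S.n) // y.lam = 0 ∧ y.x = S.p}

/-- the point of the Dolbeault space given by a point of the character variety -/
def io (x : XB S.g S.n (deg S.D)) : M0 B.T :=
  ⟨B.sg (0, x), by simpa using B.lam 0 x, B.x 0 x⟩

theorem io_cont : Continuous (io B) := B.emb.continuous.subtype_mk _

theorem nu_eq (hν : ∀ E ρ, NAH S.M S.ℓ E ρ ↔ ν (pt E) = ρ.pt)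
    {E : Higgs S.C S.n S.D} {z : Ob B.T.A B.T.l (tauX S.n)} (hx : z.1.x = S.p)
    (h : Rp B.T.A E z.1) : B.sg (0, ν (pt E)) = z.pt := by
  obtain ⟨x, e⟩ := B.rng z.pt h.1 hx
  obtain ⟨ρ, rfl⟩ := Quot.exists_rep x
  have := (hν E ρ).1 ((nah_iff S.M S.ℓ E ρ).2 ((B.nah E ρ).2 ⟨z, e.symm, h⟩))
  rw [this]
  exact e

/-- `ν` is continuous along families which come from families of objects -/
theorem nu_at (hν : ∀ E ρ, NAH S.M S.ℓ E ρ ↔ ν (pt E) = ρ.pt) {T : Type}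
    [TopologicalSpace T] {E : T → Higgs S.C S.n S.D} {F : T → Ob B.T.A B.T.l (tauX S.n)} {t : T}
    (hF : FamAt B.T.A B.T.l (fun s => (F s).1) t)
    (h : ∀ᶠ s in 𝓝 t, (F s).1.x = S.p ∧ Rp B.T.A (E s) (F s).1) :
    ContinuousAt (fun s => ν (pt (E s))) t :=
  (B.emb.isInducing.continuousAt_iff (g := fun x => B.sg (0, x))).2
    (hF.continuousAt.congr (h.mono fun _ e => (nu_eq B hν e.1 e.2).symm))

/-- the same for data on a neighbourhood `V` of `t` -/
theorem nu_on (hν : ∀ E ρ, NAH S.M S.ℓ E ρ ↔ ν (pt E) = ρ.pt) {T : Type}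
    [TopologicalSpace T] {E : T → Higgs S.C S.n S.D} {F : T → Dat S.C B.T.A.N S.n} {V : Set T}
    {t : T} (hV : V ∈ 𝓝 t) {r : ℝ} {h1 : 1 < r} {h2 : r ≤ B.T.A.R}
    (hF : FamOn (B.T.A.res r h1 h2) B.T.l F V)
    (h : ∀ s ∈ V, P275MO.Stab (B.T.A.res r h1 h2) B.T.l (F s) ∧ (F s).R = 0 ∧ (F s).x = S.p ∧
      Rp B.T.A (E s) (F s)) : ContinuousAt (fun s => ν (pt (E s))) t := by
  classical
  have ob : ∀ s ∈ V, P275MO.IsOb B.T.A B.T.l (tauX S.n).q (F s) := fun s hs =>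
    ⟨⟨r, h1, h2, hF.good s hs, (h s hs).1⟩, (h s hs).2.1 ▸ Submodule.zero_mem _⟩
  have ht := mem_of_mem_nhds hV
  let G : T → Ob B.T.A B.T.l (tauX S.n) := fun s =>
    if hs : s ∈ V then ⟨F s, ob s hs⟩ else ⟨F t, ob t ht⟩
  have e : ∀ s ∈ V, (G s).1 = F s := fun s hs =>
    congrArg Subtype.val (dif_pos hs : G s = ⟨F s, ob s hs⟩)
  refine nu_at B hν (F := G) ⟨r, h1, h2, V, hV, ?_⟩ (mem_of_superset hV fun s hs => ?_)
  · refine ⟨fun s hs => e s hs ▸ hF.good s hs, hF.lam.congr fun s hs => ?_,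
      hF.x.congr fun s hs => ?_, hF.R.congr fun s hs => ?_,
      fun i j => (hF.g i j).congr fun q hq => ?_, fun i => ((hF.a i).mono fun q hq => ?_).congr
        fun q hq => ?_, fun i => ((hF.σ i).mono fun s hs => ?_).congr fun s hs => ?_⟩
    · exact congrArg Dat.lam (e s hs)
    · exact congrArg Dat.x (e s hs)
    · exact congrArg Dat.R (e s hs)
    · exact congrArg (fun z => Dat.g z i j q.2) (e _ hq.1)
    · exact ⟨hq.1, e _ hq.1 ▸ hq.2⟩
    · exact congrArg (fun z => Dat.a z i q.2) (e _ hq.1)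
    · exact ⟨hs.1, e _ hs.1 ▸ hs.2⟩
    · exact congrArg (fun z => Dat.σ z i) (e _ hs.1)
  · exact ⟨e s hs ▸ (h s hs).2.2.1, e s hs ▸ (h s hs).2.2.2⟩

/-- the inverse of `ν` is continuous if there are local families over the Dolbeault space -/
theorem symm_cont [TopologicalSpace X] {ν : X ≃ XB S.g S.n (deg S.D)}
    (hν : ∀ E ρ, NAH S.M S.ℓ E ρ ↔ ν (pt E) = ρ.pt)
    (h : ∀ y : M0 B.T, ∃ E : M0 B.T → Higgs S.C S.n S.D, ContinuousAt (fun y => pt (E y)) y ∧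
      ∀ᶠ y' in 𝓝 y, ∃ z : Ob B.T.A B.T.l (tauX S.n), z.pt = y'.1 ∧ Rp B.T.A (E y') z.1) :
    Continuous ν.symm := by
  refine continuous_iff_continuousAt.2 fun x => ?_
  obtain ⟨E, a, b⟩ := h (io B x)
  refine (a.comp (io_cont B).continuousAt).congr (((io_cont B).continuousAt.eventually b).mono ?_)
  rintro x' ⟨z, c, d⟩
  obtain ⟨ρ, rfl⟩ := Quot.exists_rep x'
  exact (ν.symm_apply_eq.2
    ((hν _ ρ).1 ((nah_iff S.M S.ℓ _ ρ).2 ((B.nah _ ρ).2 ⟨z, c, d⟩))).symm).symm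

end Vale.Agent.P275TA
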