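import Vale.Agent.P275SF.Bridge
import Vale.Agent.P275Z.Brg
import Vale.Agent.P275AD.Higgs
import Vale.Agent.P275GC.Ex

/-!
# P275: the statement on the moduli space of Higgs bundles, for any topology which makes the
nonabelian Hodge correspondence a homeomorphism
-/

open scoped Manifold ContDiff Topology
open CategoryTheory
open Vale.Agent.P275ST (Pc Marking deg Base Higgs IsTriv)
open Vale.Agent.P275SF

noncomputable section

namespace Vale.Agent.P275TA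

variable {C : Type} [TopologicalSpace C] [T2Space C] [CompactSpace C] [ConnectedSpace C]
  [ChartedSpace ℂ C] [IsManifold 𝓘(ℂ) ω C] {p : C} {x₀ : Pc p} {g n : ℕ} {D : C →₀ ℤ}

omit [T2Space C] [ConnectedSpace C] in
theorem hit_uniq {E : Higgs C n D} {b b' : Base C n} (h : E.Hit b) (h' : E.Hit b') : b = b' := by
  obtain ⟨A, -, ok⟩ := P275GC.exists_at C
  obtain ⟨g, a, σ, k⟩ := P275AD.toCoc ok E
  exact P275AD.base_ext ok fun j i z hz => ((P275AD.hit_iff ok k b).1 h j i z hz).trans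
    ((P275AD.hit_iff ok k b').1 h' j i z hz).symm

/-- the data of the statement -/
def sit (M : Marking g p x₀) (hg : 2 ≤ g) (hn : 2 ≤ n) (hc : IsCoprime (n : ℤ) (deg D))
    {ℓ : C → ℂ} (hl : IsTriv D p ℓ) : P275Z.Sit :=
  { C, p, x₀, g, n, D, M, adm := ⟨hg, hn, hc⟩, ℓ, triv := hl }

theorem nah_pt (hB : P275Z.BRG) (M : Marking g p x₀) (hg : 2 ≤ g) (hn : 2 ≤ n)
    (hc : IsCoprime (n : ℤ) (deg D)) {ℓ : C → ℂ} (hl : IsTriv D p ℓ) {E : Higgs C n D}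
    {ρ ρ' : Rep g n (deg D)} (h : NAH M ℓ E ρ) (e : ρ.pt = ρ'.pt) : NAH M ℓ E ρ' := by
  obtain ⟨B⟩ := hB (sit M hg hn hc hl)
  obtain ⟨z, a, b⟩ := (B.nah E ρ).1 ((nah_iff M ℓ E ρ).1 h)
  exact (nah_iff M ℓ E ρ').2 ((B.nah E ρ').2
    ⟨z, a.trans (congrArg (fun x => B.sg (0, x)) e), b⟩)

/-- the bijection given by the nonabelian Hodge correspondence -/
theorem exists_nu (hB : P275Z.BRG) (M : Marking g p x₀) (hg : 2 ≤ g) (hn : 2 ≤ n)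
    (hc : IsCoprime (n : ℤ) (deg D)) {ℓ : C → ℂ} (hl : IsTriv D p ℓ) (hb : IsBij M ℓ n D) :
    ∃ ν : Quot (Higgs.Iso (C := C) (n := n) (D := D)) ≃ XB g n (deg D),
      ∀ E ρ, NAH M ℓ E ρ ↔ ν (Quot.mk _ E) = ρ.pt := by
  obtain ⟨b1, b2, b3⟩ := hb
  choose r hr using b1
  let f : Quot (Higgs.Iso (C := C) (n := n) (D := D)) → XB g n (deg D) :=
    Quot.lift (fun E => (r E).pt) fun E E' h => (b3 E E' _ _ (hr E) (hr E')).1 h
  have hf : Function.Bijective f := by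
    refine ⟨fun x y => ?_, fun x => ?_⟩
    · obtain ⟨E, rfl⟩ := Quot.exists_rep x
      obtain ⟨E', rfl⟩ := Quot.exists_rep y
      exact fun h => Quot.sound ((b3 E E' _ _ (hr E) (hr E')).2 h)
    · obtain ⟨ρ, rfl⟩ := Quot.exists_rep x
      obtain ⟨E, hE⟩ := b2 ρ
      exact ⟨Quot.mk _ E, (b3 E E _ _ (hr E) hE).1 ((b3 E E _ _ hE hE).2 rfl)⟩
  exact ⟨Equiv.ofBijective f hf, fun E ρ => ⟨fun h => (b3 E E _ _ (hr E) h).1
    ((b3 E E _ _ h h).2 rfl), fun h => nah_pt hB M hg hn hc hl (hr E) h⟩⟩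

theorem asm_of (hP : PW) (hB : P275Z.BRG) (hN : P275Z.NAHB) (M : Marking g p x₀) (hg : 2 ≤ g)
    (hn : 2 ≤ n) (hc : IsCoprime (n : ℤ) (deg D))
    [TopologicalSpace (Quot (Higgs.Iso (C := C) (n := n) (D := D)))]
    (hT : ∀ ℓ, IsTriv D p ℓ → ∀ ν : Quot (Higgs.Iso (C := C) (n := n) (D := D)) ≃ XB g n (deg D),
      (∀ E ρ, NAH M ℓ E ρ ↔ ν (Quot.mk _ E) = ρ.pt) → Continuous ν ∧ Continuous ν.symm) :
    ∃ h : C(Quot (Higgs.Iso (C := C) (n := n) (D := D)), Base C n), IsProperMap h ∧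
      (∀ E : Higgs C n D, E.Hit (h (Quot.mk _ E))) ∧
      ∀ ℓ, IsTriv D p ℓ → ∃ ν : Quot (Higgs.Iso (C := C) (n := n) (D := D)) ≃ₜ XB g n (deg D),
        (∀ E ρ, NAH M ℓ E ρ ↔ ν (Quot.mk _ E) = ρ.pt) ∧
        PEqW (X := XT g n (deg D)) (Y := BT C n) (ZB C n) (dimR g n)
          (TopCat.ofHom (h.comp ⟨ν.symm, ν.symm.continuous⟩)) CptB.j := by
  obtain ⟨⟨l0, h0⟩, -, H⟩ := (hP C p x₀).2 g n D M hg hn hc
  have key : ∀ ℓ, IsTriv D p ℓ →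
      ∃ ν : Quot (Higgs.Iso (C := C) (n := n) (D := D)) ≃ₜ XB g n (deg D),
        ∀ E ρ, NAH M ℓ E ρ ↔ ν (Quot.mk _ E) = ρ.pt := fun ℓ hl => by
    obtain ⟨ν, hν⟩ := exists_nu hB M hg hn hc hl (H ℓ hl).1
    exact ⟨⟨ν, (hT ℓ hl ν hν).1, (hT ℓ hl ν hν).2⟩, hν⟩
  obtain ⟨ν0, e0⟩ := key l0 h0
  obtain ⟨-, -, -, k, k1, k2⟩ := hN (sit M hg hn hc h0)
  let k' : C(XB g n (deg D), Base C n) := k
  have hit : ∀ E : Higgs C n D, E.Hit (k' (ν0 (Quot.mk _ E))) := fun E => by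
    obtain ⟨ρ, hρ⟩ := (H l0 h0).1.1 E
    rw [(e0 E ρ).1 hρ]
    exact k1 E ρ ((nah_iff M l0 E ρ).1 hρ)
  refine ⟨k'.comp ⟨ν0, ν0.continuous⟩, IsProperMap.comp (g := k') k2 ν0.isProperMap, hit,
    fun ℓ hl => ?_⟩
  obtain ⟨ν, e⟩ := key ℓ hl
  obtain ⟨b, h, h1, h2⟩ := H ℓ hl
  refine ⟨ν, e, ?_⟩
  have : (TopCat.ofHom ((k'.comp ⟨ν0, ν0.continuous⟩).comp ⟨ν.symm, ν.symm.continuous⟩) :
      XT g n (deg D) ⟶ BT C n) = h := by
    refine TopCat.ext fun x => ?_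
    obtain ⟨ρ, rfl⟩ := Quot.exists_rep x
    obtain ⟨E, hE⟩ := b.2.1 ρ
    have a : ν.symm ρ.pt = Quot.mk _ E := ν.symm_apply_eq.2 ((e E ρ).1 hE).symm
    refine hit_uniq (E := E) ?_ (h1 E ρ hE)
    exact (congrArg (fun y => E.Hit (k' (ν0 y))) a).mpr (hit E)
  exact this ▸ h2

end Vale.Agent.P275TA
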